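import Vale.Agent.P195.Bdl.B3
import Mathlib.Algebra.Homology.DerivedCategory.Ext.EnoughInjectives
import Mathlib.Algebra.Category.ModuleCat.EnoughInjectives

/-!
# P195: from an Auslander–Reiten pair to a simple module with `Ext^i(T, B) = 0` for all `i ≥ 0`

For an `A`-module `M` put `X = A × M` and `B = (End_A X)ᵒᵖ`.  If `Ext^i_A(X, X) = 0` for `i ≥ 1`
then every `B`-module killed by the idempotent of the summand `A` is orthogonal to `B`.
-/

open CategoryTheory CategoryTheory.Abelian Function

namespace Vale.Agent.P195.H231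

open Vale.Agent.P195.Van Vale.Agent.P195.Dis

universe u

section gen

variable {A : Type u} [Ring A] {M : Type u} [AddCommGroup M] [Module A M]

/-- the endomorphism `(b, m) ↦ b • x` of `A × M` -/
def ep (x : A × M) : (A × M) →ₗ[A] (A × M) :=
  LinearMap.toSpanSingleton A (A × M) x ∘ₗ LinearMap.fst A A M

@[simp] theorem ep_apply (x y : A × M) : ep x y = y.1 • x := rfl

/-- `ep x` as an element of the ring -/
def epo (x : A × M) : EndOp A (A × M) := MulOpposite.op (ep x)

@[simp] theorem epo_unop (x : A × M) : (epo x).unop = ep x := rfl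

theorem epo_add (x y : A × M) : epo (x + y) = epo x + epo y := by
  apply MulOpposite.unop_injective
  apply LinearMap.ext
  intro z
  change z.1 • (x + y) = z.1 • x + z.1 • y
  rw [smul_add]

/-- the idempotent of the summand `A` -/
def e0 (A M : Type u) [Ring A] [AddCommGroup M] [Module A M] : EndOp A (A × M) :=
  epo ((1 : A), (0 : M))

theorem epo_mul (x : A × M) (b : EndOp A (A × M)) : epo x * b = epo (b.unop x) := by
  apply MulOpposite.unop_injective
  apply LinearMap.ext
  intro z
  change b.unop (z.1 • x) = z.1 • b.unop x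
  rw [map_smul]

theorem e0_mul_epo (x : A × M) : e0 A M * epo x = epo x := by
  rw [e0, epo_mul]
  congr 1
  change (1 : A) • x = x
  rw [one_smul]

theorem epo_smul (a : A) (x : A × M) : epo (a • x) = epo (a, (0 : M)) * epo x := by
  rw [epo_mul]
  rfl

variable {N : Type u} [AddCommGroup N] [Module (EndOp A (A × M)) N]

variable (A M N) in
/-- the part `e N` of a module -/
def EN : AddSubgroup N where
  carrier := {n | e0 A M • n = n}
  add_mem' := by
    intro a b ha hb
    change e0 A M • (a + b) = a + b
    rw [smul_add, show e0 A M • a = a from ha, show e0 A M • b = b from hb]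
  zero_mem' := smul_zero _
  neg_mem' := by
    intro a ha
    change e0 A M • (-a) = -a
    rw [smul_neg, show e0 A M • a = a from ha]

theorem mem_EN {n : N} : n ∈ EN A M N ↔ e0 A M • n = n := Iff.rfl

theorem epo_smul_mem (x : A × M) (n : N) : epo x • n ∈ EN A M N := by
  rw [mem_EN, ← mul_smul, e0_mul_epo]

instance : SMul A (EN A M N) := ⟨fun a n => ⟨epo (a, (0 : M)) • n.1, epo_smul_mem _ _⟩⟩

theorem EN_smul_val (a : A) (n : EN A M N) : (a • n).1 = epo (a, (0 : M)) • n.1 := rfl

instance : Module A (EN A M N) where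
  one_smul n := by
    apply Subtype.ext
    exact n.2
  mul_smul a b n := by
    apply Subtype.ext
    rw [EN_smul_val, EN_smul_val, EN_smul_val, ← mul_smul, epo_mul]
    congr 2
    change (a * b, (0 : M)) = a • (b, (0 : M))
    ext <;> simp
  smul_zero a := by
    apply Subtype.ext
    exact smul_zero _
  smul_add a n n' := by
    apply Subtype.ext
    exact smul_add _ _ _
  add_smul a b n := by
    apply Subtype.ext
    rw [AddSubgroup.coe_add, EN_smul_val, EN_smul_val, EN_smul_val, ← add_smul, ← epo_add]
    congr 2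
    ext <;> simp
  zero_smul n := by
    apply Subtype.ext
    rw [EN_smul_val]
    have : epo ((0 : A), (0 : M)) = 0 := by
      apply MulOpposite.unop_injective
      apply LinearMap.ext
      intro z
      change z.1 • ((0 : A), (0 : M)) = 0
      ext <;> simp
    rw [this, zero_smul]
    rfl

/-- Maps into `Hom (A × M, Y)` are determined by their values at `(1, 0)`. -/
theorem hom_HM_eval {Y : Type u} [AddCommGroup Y] [Module A Y]
    (φ : N →ₗ[EndOp A (A × M)] HM A (A × M) Y) (n : N) (x : A × M) :
    (φ n).lin x = (φ (epo x • n)).lin (1, 0) := by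
  rw [map_smul]
  change (φ n).lin x = (φ n).lin (ep x (1, 0))
  congr 1
  change x = (1 : A) • x
  rw [one_smul]

/-- `Hom (A × M, I)` is injective if `I` is. -/
theorem injective_HM {I : Type u} [AddCommGroup I] [Module A I] [hI : Module.Injective A I] :
    Module.Injective (EndOp A (A × M)) (HM A (A × M) I) where
  out := by
    intro N' N _ _ _ _ f hf g
    let fe : EN A M N' →ₗ[A] EN A M N :=
      { toFun := fun n => ⟨f n.1, by rw [mem_EN, ← map_smul, mem_EN.1 n.2]⟩
        map_add' := fun n n' => Subtype.ext (map_add f _ _)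
        map_smul' := fun a n => Subtype.ext (map_smul f _ _) }
    have hfe : Injective fe := by
      intro n n' h
      exact Subtype.ext (hf (congrArg Subtype.val h))
    let ge : EN A M N' →ₗ[A] I :=
      { toFun := fun n => (g n.1).lin (1, 0)
        map_add' := fun n n' => by
          rw [AddSubgroup.coe_add, map_add, HM.lin_add, LinearMap.add_apply]
        map_smul' := fun a n => by
          rw [RingHom.id_apply, EN_smul_val, ← hom_HM_eval, ← map_smul]
          congr 1
          ext <;> simp }
    obtain ⟨h, hh⟩ := hI.out fe hfe ge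
    refine ⟨{ toFun := fun n => HM.mk
                { toFun := fun x => h ⟨epo x • n, epo_smul_mem x n⟩
                  map_add' := ?_
                  map_smul' := ?_ }
              map_add' := ?_
              map_smul' := ?_ }, ?_⟩
    · intro x y
      rw [← map_add]
      congr 1
      apply Subtype.ext
      change epo (x + y) • n = epo x • n + epo y • n
      rw [epo_add, add_smul]
    · intro a x
      rw [RingHom.id_apply, ← map_smul]
      congr 1
      apply Subtype.ext
      rw [EN_smul_val]
      change epo (a • x) • n = epo (a, (0 : M)) • epo x • n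
      rw [epo_smul, mul_smul]
    · intro n n'
      apply HM.ext'
      apply LinearMap.ext
      intro x
      change h ⟨epo x • (n + n'), _⟩ = h ⟨epo x • n, _⟩ + h ⟨epo x • n', _⟩
      rw [← map_add]
      congr 1
      apply Subtype.ext
      exact smul_add _ _ _
    · intro b n
      apply HM.ext'
      apply LinearMap.ext
      intro x
      change h ⟨epo x • b • n, _⟩ = h ⟨epo (b.unop x) • n, _⟩
      congr 1
      apply Subtype.ext
      change epo x • b • n = epo (b.unop x) • n
      rw [← mul_smul, epo_mul]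
    · intro n
      apply HM.ext'
      apply LinearMap.ext
      intro x
      change h ⟨epo x • f n, _⟩ = (g n).lin x
      rw [hom_HM_eval]
      have h1 := hh ⟨epo x • n, epo_smul_mem x n⟩
      refine Eq.trans ?_ h1
      congr 1
      apply Subtype.ext
      exact (map_smul f _ _).symm

/-- Modules killed by `e` have no maps to `Hom (A × M, Y)`. -/
theorem hom_HM_eq_zero {Y : Type u} [AddCommGroup Y] [Module A Y]
    (hN : ∀ n : N, e0 A M • n = 0) (φ : N →ₗ[EndOp A (A × M)] HM A (A × M) Y) : φ = 0 := by
  apply LinearMap.ext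
  intro n
  apply HM.ext'
  apply LinearMap.ext
  intro x
  rw [hom_HM_eval, ← e0_mul_epo, mul_smul, hN, map_zero, LinearMap.zero_apply]
  rfl

/-- `Hom (X, -)` is exact on `0 → Y → I → Y' → 0` if `Ext¹ (X, Y) = 0`. -/
theorem ses_HM {X Y I Y' : Type u} [AddCommGroup X] [Module A X] [AddCommGroup Y] [Module A Y]
    [AddCommGroup I] [Module A I] [AddCommGroup Y'] [Module A Y'] {f : Y →ₗ[A] I}
    {g : I →ₗ[A] Y'} (s : SES f g) (h : EZ A 1 X Y) : SES (HM.map X f) (HM.map X g) := by
  refine ⟨?_, ?_, ?_⟩
  · intro φ ψ hφψ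
    apply HM.ext'
    apply LinearMap.ext
    intro x
    exact s.inj (LinearMap.congr_fun (congrArg HM.lin hφψ) x)
  · intro φ
    constructor
    · intro hφ
      have h1 : ∀ x, ∃ y, f y = φ.lin x := fun x =>
        (s.exact (φ.lin x)).1 (LinearMap.congr_fun (congrArg HM.lin hφ) x)
      choose y hy using h1
      refine ⟨HM.mk
        { toFun := y
          map_add' := fun p q => s.inj (by rw [map_add, hy, hy, hy, map_add])
          map_smul' := fun r p => s.inj (by
            rw [RingHom.id_apply, map_smul, hy, hy, map_smul]) }, ?_⟩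
      apply HM.ext'
      apply LinearMap.ext
      intro x
      exact hy x
    · rintro ⟨ψ, rfl⟩
      apply HM.ext'
      apply LinearMap.ext
      intro x
      exact (s.exact (f (ψ.lin x))).2 ⟨_, rfl⟩
  · intro φ
    have h1 := Ext.covariant_sequence_exact₃ (S := scx (A := ModuleCat.of A Y)
      (B := ModuleCat.of A I) (C := ModuleCat.of A Y') f g s.exact) (ModuleCat.of A X)
      (scx_shortExact (A := ModuleCat.of A Y)
      (B := ModuleCat.of A I) (C := ModuleCat.of A Y') f g s.exact s.inj s.surj) (cl0 (A := ModuleCat.of A X)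
      (V := ModuleCat.of A Y') φ.lin) rfl (h.elim _ _)
    obtain ⟨y, hy⟩ := h1
    obtain ⟨ψ, rfl⟩ := cl0_surj (A := ModuleCat.of A X) (V := ModuleCat.of A I) y
    refine ⟨HM.mk ψ, ?_⟩
    apply HM.ext'
    have h2 : push (M := ModuleCat.of A X) (A := ModuleCat.of A I) (B := ModuleCat.of A Y') g
      (cl0 ψ) = cl0 φ.lin := hy
    rw [push_cl0] at h2
    exact cl0_inj h2

/-- The covariant dimension shift over an injective module. -/
theorem ez_shift_right {X Y I Y' : Type u} [AddCommGroup X] [Module A X] [AddCommGroup Y]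
    [Module A Y] [AddCommGroup I] [Module A I] [AddCommGroup Y'] [Module A Y'] {f : Y →ₗ[A] I}
    {g : I →ₗ[A] Y'} (s : SES f g) {i : ℕ} (hI : EZ A (i + 1) X I) (h : EZ A (i + 2) X Y) :
    EZ A (i + 1) X Y' := by
  refine subsingleton_of_forall_eq 0 fun x => ?_
  obtain ⟨y, hy⟩ := Ext.covariant_sequence_exact₃ (S := scx (A := ModuleCat.of A Y)
      (B := ModuleCat.of A I) (C := ModuleCat.of A Y') f g s.exact) (ModuleCat.of A X)
      (scx_shortExact (A := ModuleCat.of A Y)
      (B := ModuleCat.of A I) (C := ModuleCat.of A Y') f g s.exact s.inj s.surj) x rfl (h.elim _ _)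
  rw [← hy, show y = 0 from hI.elim _ _, Ext.zero_comp]
  rfl

theorem ez_shift_right' {X Y I Y' : Type u} [AddCommGroup X] [Module A X] [AddCommGroup Y]
    [Module A Y] [AddCommGroup I] [Module A I] [AddCommGroup Y'] [Module A Y'] {f : Y →ₗ[A] I}
    {g : I →ₗ[A] Y'} (s : SES f g) {i : ℕ} (hI : EZ A (i + 1) X I) (h : EZ A i X Y') :
    EZ A (i + 1) X Y := by
  refine subsingleton_of_forall_eq 0 fun x => ?_
  obtain ⟨y, rfl⟩ := exists_of_push_left (A := ModuleCat.of A Y) (B := ModuleCat.of A I)
    (C := ModuleCat.of A Y') (M := ModuleCat.of A X) s.exact s.inj s.surj x (hI.elim _ _)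
  rw [show y = 0 from h.elim _ _, conn'_zero]

theorem ez_injective {X I : Type u} [AddCommGroup X] [Module A X] [AddCommGroup I]
    [Module A I] [Module.Injective A I] (i : ℕ) : EZ A (i + 1) X I := by
  have : CategoryTheory.Injective (ModuleCat.of A I) :=
    Module.injective_object_of_injective_module A I
  exact subsingleton_of_forall_eq 0 Ext.eq_zero_of_injective

/-- every module embeds into an injective one -/
theorem exists_injective (Y : Type u) [AddCommGroup Y] [Module A Y] :
    ∃ (I : Type u) (_ : AddCommGroup I) (_ : Module A I) (Y' : Type u) (_ : AddCommGroup Y')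
      (_ : Module A Y') (f : Y →ₗ[A] I) (g : I →ₗ[A] Y'), Module.Injective A I ∧ SES f g := by
  obtain ⟨⟨J, hJ, ι, hι⟩⟩ := EnoughInjectives.presentation (ModuleCat.of A Y)
  refine ⟨J, inferInstance, inferInstance, J ⧸ LinearMap.range ι.hom, inferInstance,
    inferInstance, ι.hom, (LinearMap.range ι.hom).mkQ,
    Module.injective_module_of_injective_object A J, ?_, ?_, ?_⟩
  · exact (ModuleCat.mono_iff_injective ι).1 hι
  · intro x
    rw [Submodule.mkQ_apply, Submodule.Quotient.mk_eq_zero, LinearMap.mem_range, Set.mem_range]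
  · exact Submodule.mkQ_surjective _

/-- the key induction -/
theorem ez_HM (hN : ∀ n : N, e0 A M • n = 0) (i : ℕ) : ∀ (Y : Type u) [AddCommGroup Y]
    [Module A Y], OrthPos A (A × M) Y → EZ (EndOp A (A × M)) i N (HM A (A × M) Y) := by
  induction i with
  | zero =>
    intro Y _ _ _
    exact ez_zero_iff.2 (hom_HM_eq_zero hN)
  | succ i ih =>
    intro Y _ _ hY
    obtain ⟨I, _, _, Y', _, _, f, g, hI, s⟩ := exists_injective (A := A) Y
    have hY' : OrthPos A (A × M) Y' := fun j => ez_shift_right s (ez_injective j) (hY (j + 1))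
    have := injective_HM (M := M) (hI := hI)
    exact ez_shift_right' (ses_HM s (hY 0)) (ez_injective i) (ih Y' hY')

theorem EZ.congr_right {R : Type u} [Ring R] {X P Q : Type u} [AddCommGroup X] [Module R X]
    [AddCommGroup P] [Module R P] [AddCommGroup Q] [Module R Q] {i : ℕ} (e : P ≃ₗ[R] Q)
    (h : EZ R i X P) : EZ R i X Q := by
  refine subsingleton_of_forall_eq 0 fun x => ?_
  have h1 : push (M := ModuleCat.of R X) (A := ModuleCat.of R P) (B := ModuleCat.of R Q)
      (e : P →ₗ[R] Q) (push (M := ModuleCat.of R X) (A := ModuleCat.of R Q)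
      (B := ModuleCat.of R P) (e.symm : Q →ₗ[R] P) x) = x := by
    rw [push_push]
    have h2 : ((e : P →ₗ[R] Q) ∘ₗ (e.symm : Q →ₗ[R] P)) = LinearMap.id := by
      apply LinearMap.ext
      intro x
      simp
    have h3 : push (M := ModuleCat.of R X) (A := ModuleCat.of R Q) (B := ModuleCat.of R Q)
        (LinearMap.id : Q →ₗ[R] Q) x = x := Ext.comp_mk₀_id x
    exact (congrArg (fun f => push (M := ModuleCat.of R X) (A := ModuleCat.of R Q)
      (B := ModuleCat.of R Q) f x) h2).trans h3
  rw [← h1, show push (M := ModuleCat.of R X) (A := ModuleCat.of R Q)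
      (B := ModuleCat.of R P) (e.symm : Q →ₗ[R] P) x = 0 from h.elim _ _, push_zero]

/-- Modules killed by `e` are orthogonal to the ring. -/
theorem ez_ring (hX : OrthPos A (A × M) (A × M)) (hN : ∀ n : N, e0 A M • n = 0) (i : ℕ) :
    EZ (EndOp A (A × M)) i N (EndOp A (A × M)) :=
  EZ.congr_right HM.selfEquiv (ez_HM hN i (A × M) hX)

end gen

/-! ### A simple module killed by the idempotent -/

section simple

variable {A : Type u} [Ring A] {M : Type u} [AddCommGroup M] [Module A M]

/-- elements of the left ideal generated by `e B` factor through projective modules -/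
theorem factor_of_mem (b : EndOp A (A × M))
    (hb : b ∈ Ideal.span (Set.range fun c : EndOp A (A × M) => e0 A M * c)) :
    ∃ (P : Type u) (_ : AddCommGroup P) (_ : Module A P) (p : (A × M) →ₗ[A] P)
      (q : P →ₗ[A] (A × M)), Module.Projective A P ∧ q ∘ₗ p = b.unop := by
  refine Submodule.span_induction (p := fun b _ =>
    ∃ (P : Type u) (_ : AddCommGroup P) (_ : Module A P) (p : (A × M) →ₗ[A] P)
      (q : P →ₗ[A] (A × M)), Module.Projective A P ∧ q ∘ₗ p = b.unop) ?_ ?_ ?_ ?_ hb
  · rintro _ ⟨c, rfl⟩
    refine ⟨A, inferInstance, inferInstance, LinearMap.fst A A M,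
      c.unop ∘ₗ LinearMap.toSpanSingleton A (A × M) (1, 0), inferInstance, ?_⟩
    rfl
  · refine ⟨A, inferInstance, inferInstance, 0, 0, inferInstance, ?_⟩
    rw [LinearMap.comp_zero]
    rfl
  · rintro x y _ _ ⟨P, _, _, p, q, hP, h⟩ ⟨P', _, _, p', q', hP', h'⟩
    refine ⟨P × P', inferInstance, inferInstance, p.prod p', q.coprod q', inferInstance, ?_⟩
    rw [MulOpposite.unop_add, ← h, ← h']
    apply LinearMap.ext
    intro z
    simp
  · rintro a x _ ⟨P, _, _, p, q, hP, h⟩
    refine ⟨P, inferInstance, inferInstance, p ∘ₗ a.unop, q, hP, ?_⟩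
    rw [smul_eq_mul, MulOpposite.unop_mul, ← h]
    rfl

/-- If `M` is not projective there is a simple module killed by `e`. -/
theorem exists_simple (hM : ¬ Module.Projective A M) :
    ∃ (T : Type u) (_ : AddCommGroup T) (_ : Module (EndOp A (A × M)) T),
      IsSimpleModule (EndOp A (A × M)) T ∧ ∀ n : T, e0 A M • n = 0 := by
  have h1 : Ideal.span (Set.range fun c : EndOp A (A × M) => e0 A M * c) ≠ ⊤ := by
    intro h
    obtain ⟨P, _, _, p, q, hP, hqp⟩ := factor_of_mem (A := A) (M := M) 1
      (h ▸ Submodule.mem_top)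
    apply hM
    refine Module.Projective.of_split (p ∘ₗ LinearMap.inr A A M) (LinearMap.snd A A M ∘ₗ q) ?_
    apply LinearMap.ext
    intro x
    have h2 := LinearMap.congr_fun hqp (0, x)
    change (q (p (0, x))).2 = x
    rw [show q (p (0, x)) = (0, x) from h2]
  obtain ⟨J, hJ, hle⟩ := Ideal.exists_le_maximal _ h1
  refine ⟨EndOp A (A × M) ⧸ J, inferInstance, inferInstance, ?_, ?_⟩
  · exact isSimpleModule_iff_isCoatom.2 hJ.out
  · intro n
    obtain ⟨c, rfl⟩ := Submodule.mkQ_surjective J n
    rw [← map_smul]
    exact (Submodule.Quotient.mk_eq_zero J).2 (hle (Ideal.subset_span ⟨c, rfl⟩))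

end simple

/-! ### The generalized Nakayama conjecture -/

theorem exact_inl_snd' (A N N' : Type u) [Ring A] [AddCommGroup N] [Module A N]
    [AddCommGroup N'] [Module A N'] :
    Exact (LinearMap.inl A N N') (LinearMap.snd A N N') := by
  intro x
  constructor
  · intro h
    exact ⟨x.1, Prod.ext rfl h.symm⟩
  · rintro ⟨y, rfl⟩
    rfl

theorem OrthPos.prod_left {A : Type u} [Ring A] {M M' N : Type u} [AddCommGroup M] [Module A M]
    [AddCommGroup M'] [Module A M'] [AddCommGroup N] [Module A N] (h : OrthPos A M N)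
    (h' : OrthPos A M' N) : OrthPos A (M × M') N := by
  intro i
  have s : SES (LinearMap.inl A M M') (LinearMap.snd A M M') :=
    ⟨LinearMap.inl_injective, exact_inl_snd' A M M', LinearMap.snd_surjective⟩
  refine subsingleton_of_forall_eq 0 fun x => ?_
  obtain ⟨y, rfl⟩ := exists_of_pull_left (A := ModuleCat.of A M) (B := ModuleCat.of A (M × M'))
    (C := ModuleCat.of A M') s.exact s.inj s.surj x ((h i).elim _ _)
  rw [show y = 0 from (h' i).elim _ _, pull_zero]

theorem OrthPos.prod_right {A : Type u} [Ring A] {M N N' : Type u} [AddCommGroup M] [Module A M]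
    [AddCommGroup N'] [Module A N'] [AddCommGroup N] [Module A N] (h : OrthPos A M N)
    (h' : OrthPos A M N') : OrthPos A M (N × N') := by
  intro i
  have s : SES (LinearMap.inl A N N') (LinearMap.snd A N N') :=
    ⟨LinearMap.inl_injective, exact_inl_snd' A N N', LinearMap.snd_surjective⟩
  refine subsingleton_of_forall_eq 0 fun x => ?_
  obtain ⟨y, hy⟩ := Ext.covariant_sequence_exact₂ (S := scx (A := ModuleCat.of A N)
      (B := ModuleCat.of A (N × N')) (C := ModuleCat.of A N') _ _ s.exact) (ModuleCat.of A M)
      (scx_shortExact (A := ModuleCat.of A N)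
      (B := ModuleCat.of A (N × N')) (C := ModuleCat.of A N') _ _ s.exact s.inj s.surj) x
      ((h' i).elim _ _)
  rw [← hy, show y = 0 from (h i).elim _ _, Ext.zero_comp]
  rfl

theorem gnc_of_ar {K : Type u} [Field K] {A : Type u} [Ring A] [Algebra K A]
    [Module.Finite K A] {M : Type u} [AddCommGroup M] [Module A M] [Module.Finite A M]
    (hM : ¬ Module.Projective A M) (h1 : OrthPos A M M) (h2 : OrthPos A M A) :
    ∃ (B : Type u) (_ : Ring B) (_ : Algebra K B) (T : Type u) (_ : AddCommGroup T)
      (_ : Module B T), Module.Finite K B ∧ IsSimpleModule B T ∧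
      ∀ i : ℕ, Subsingleton (Ext (ModuleCat.of B T) (ModuleCat.of B B) i) := by
  let _ : Module K M := Module.compHom M (algebraMap K A)
  have : IsScalarTower K A M := ⟨fun k a m => by
    change (k • a) • m = algebraMap K A k • (a • m)
    rw [Algebra.smul_def, mul_smul]⟩
  obtain ⟨T, _, _, hT, hk⟩ := exists_simple (A := A) (M := M) hM
  refine ⟨EndOp A (A × M), inferInstance, inferInstance, T, inferInstance, inferInstance,
    finite_endOp, hT, ?_⟩
  have h3 : OrthPos A (A × M) (A × M) :=
    OrthPos.prod_right (OrthPos.prod_left orthPos_of_projective h2)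
      (OrthPos.prod_left orthPos_of_projective h1)
  exact fun i => ez_ring h3 hk i

end Vale.Agent.P195.H231
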