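import Vale.Agent.P195.H231.Gnc

/-!
# P195: infinitely many indecomposable Auslander–Reiten counterexamples over one algebra
-/

open CategoryTheory CategoryTheory.Abelian Function

namespace Vale.Agent.P195.H231

open Vale.Agent.P195.Van Vale.Agent.P195.Dis

universe u

section retract

variable {A : Type u} [Ring A]

theorem OrthPos.retract {D S D' S' : Type u} [AddCommGroup D] [Module A D] [AddCommGroup S]
    [Module A S] [AddCommGroup D'] [Module A D'] [AddCommGroup S'] [Module A S']
    (i : D →ₗ[A] S) (r : S →ₗ[A] D) (h : r ∘ₗ i = LinearMap.id)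
    (i' : D' →ₗ[A] S') (r' : S' →ₗ[A] D') (h' : r' ∘ₗ i' = LinearMap.id)
    (hS : OrthPos A S S') : OrthPos A D D' := by
  have h1 : OrthPos A S D' := OrthPos.of_retract_sum_right (Finset.univ : Finset Unit)
    (fun _ => S') (fun _ => i') (fun _ => r') (by
      rw [Finset.univ_unique, Finset.sum_singleton]
      exact h') (fun _ => hS)
  exact fun j => EZ.of_retract i r h (h1 j)

/-- indecomposable (or zero) -/
def Indec (A : Type u) [Ring A] (M : Type u) [AddCommGroup M] [Module A M] : Prop :=
  ∀ p q : Submodule A M, IsCompl p q → p = ⊥ ∨ q = ⊥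

/-- A non-projective Artinian module has an indecomposable non-projective direct summand. -/
theorem exists_indec {M : Type u} [AddCommGroup M] [Module A M] [IsArtinian A M]
    (hM : ¬ Module.Projective A M) :
    ∃ (N : Type u) (_ : AddCommGroup N) (_ : Module A N) (i : N →ₗ[A] M) (r : M →ₗ[A] N),
      r ∘ₗ i = LinearMap.id ∧ Indec A N ∧ ¬ Module.Projective A N := by
  let 𝒮 : Set (Submodule A M) := {N | (∃ r : M →ₗ[A] N, r ∘ₗ N.subtype = LinearMap.id) ∧
    ¬ Module.Projective A N}
  have h𝒮 : 𝒮.Nonempty := by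
    refine ⟨⊤, ⟨(Submodule.topEquiv (R := A) (M := M)).symm.toLinearMap, ?_⟩, fun h => hM ?_⟩
    · apply LinearMap.ext
      intro x
      rfl
    · exact Module.Projective.of_equiv (Submodule.topEquiv (R := A) (M := M))
  obtain ⟨N, ⟨⟨r, hr⟩, hN⟩, hmin⟩ := WellFounded.has_min (wellFounded_lt (α := Submodule A M)) 𝒮 h𝒮
  refine ⟨N, inferInstance, inferInstance, N.subtype, r, hr, ?_, hN⟩
  have key : ∀ p q : Submodule A N, IsCompl p q → q ≠ ⊥ → Module.Projective A p := by
    intro p q hpq hq
    by_contra hp
    let e := Submodule.equivSubtypeMap N p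
    refine hmin (p.map N.subtype) ⟨⟨e.toLinearMap ∘ₗ (p.projectionOnto q hpq) ∘ₗ r, ?_⟩,
      fun h => hp ?_⟩ ?_
    · apply LinearMap.ext
      intro x
      obtain ⟨y, rfl⟩ := e.surjective x
      change e (p.projectionOnto q hpq (r (N.subtype y.1))) = e y
      congr 1
      have h1 : r (N.subtype y.1) = y.1 := LinearMap.congr_fun hr y.1
      rw [h1]
      exact Submodule.projectionOnto_apply_left hpq y
    · exact Module.Projective.of_equiv e.symm
    · refine lt_of_le_of_ne ?_ ?_
      · rintro _ ⟨y, _, rfl⟩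
        exact y.2
      · intro h
        apply hq
        have h2 : p = ⊤ := by
          rw [eq_top_iff]
          intro y _
          have h3 : (y : M) ∈ p.map N.subtype := by
            rw [h]
            exact y.2
          obtain ⟨z, hz, hzy⟩ := h3
          have : z = y := Subtype.ext hzy
          rwa [← this]
        rw [h2] at hpq
        exact hpq.disjoint.eq_bot_of_ge le_top
  intro p q hpq
  by_contra hcon
  rw [not_or] at hcon
  have h1 := key p q hpq hcon.2
  have h2 := key q p hpq.symm hcon.1
  exact hN (Module.Projective.of_equiv (Submodule.prodEquivOfIsCompl p q hpq))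

end retract

/-- indecomposable counterexamples to the Auslander–Reiten conjecture over `A` -/
structure ARM (A : Type u) [Ring A] where
  M : Type u
  [g : AddCommGroup M]
  [m : Module A M]
  fin : Module.Finite A M
  np : ¬ Module.Projective A M
  ind : Indec A M
  self : OrthPos A M M
  reg : OrthPos A M A

attribute [instance] ARM.g ARM.m

/-- `D` is a direct summand of a syzygy of `C` -/
def Next {A : Type u} [Ring A] (C D : ARM A) : Prop :=
  ∃ (S : Type u) (_ : AddCommGroup S) (_ : Module A S) (P : Type u) (_ : AddCommGroup P)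
    (_ : Module A P) (f : S →ₗ[A] P) (g : P →ₗ[A] C.M) (i : D.M →ₗ[A] S) (r : S →ₗ[A] D.M),
    SES f g ∧ Module.Projective A P ∧ r ∘ₗ i = LinearMap.id

section next

variable {A : Type u} [Ring A]

theorem of_ar [IsArtinianRing A] {M : Type u} [AddCommGroup M] [Module A M]
    (fin : Module.Finite A M) (np : ¬ Module.Projective A M) (self : OrthPos A M M)
    (reg : OrthPos A M A) : ∃ (D : ARM A) (i : D.M →ₗ[A] M) (r : M →ₗ[A] D.M),
      r ∘ₗ i = LinearMap.id := by
  obtain ⟨N, _, _, i, r, h, hi, hn⟩ := exists_indec np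
  exact ⟨⟨N, Module.Finite.of_surjective r fun x => ⟨i x, LinearMap.congr_fun h x⟩, hn, hi,
    OrthPos.retract i r h i r h self,
    OrthPos.retract i r h LinearMap.id LinearMap.id rfl reg⟩, i, r, h⟩

theorem exists_next [IsArtinianRing A] (C : ARM A) : ∃ D : ARM A, Next C D := by
  have := C.fin
  obtain ⟨k, g, hg⟩ := Module.Finite.exists_fin' A C.M
  let S := LinearMap.ker g
  have s : SES S.subtype g := ⟨S.injective_subtype, fun x =>
    ⟨fun h => ⟨⟨x, h⟩, rfl⟩, fun ⟨y, hy⟩ => hy ▸ y.2⟩, hg⟩
  have hP : OrthPos A (Fin k → A) (Fin k → A) := orthPos_of_projective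
  have hCP : OrthPos A C.M (Fin k → A) := OrthPos.of_retract_sum_right
    (Finset.univ : Finset (Fin k)) (fun _ => A) (fun i => LinearMap.proj i)
    (fun i => LinearMap.single A (fun _ => A) i) (by
      apply LinearMap.ext
      intro x
      rw [LinearMap.sum_apply]
      exact (LinearMap.sum_single_apply (fun _ => A) x)) (fun _ => C.reg)
  have fS : Module.Finite A S := inferInstance
  have nS : ¬ Module.Projective A S := by
    intro h
    obtain ⟨l, π, hπ⟩ := Module.Finite.exists_fin' A S
    obtain ⟨σ, hσ⟩ := Module.projective_lifting_property π LinearMap.id hπ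
    have h1 : OrthPos A C.M S := OrthPos.of_retract_sum_right
      (Finset.univ : Finset (Fin l)) (fun _ => A) (fun i => LinearMap.proj i ∘ₗ σ)
      (fun i => π ∘ₗ LinearMap.single A (fun _ => A) i) (by
        apply LinearMap.ext
        intro x
        rw [LinearMap.sum_apply]
        simp only [LinearMap.comp_apply, LinearMap.proj_apply]
        rw [← map_sum]
        refine Eq.trans ?_ (LinearMap.congr_fun hσ x)
        exact congrArg π (LinearMap.sum_single_apply (fun _ => A) (σ x))) (fun _ => C.reg)
    obtain ⟨v, hv⟩ := s.extend (h1 0) LinearMap.id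
    have h2 : ∀ x, ∃ y, g y = x := hg
    apply C.np
    -- the complement of `S` is isomorphic to `C`
    have h3 : ∀ y, g (y - S.subtype (v y)) = g y := by
      intro y
      rw [map_sub, show g (S.subtype (v y)) = 0 from (v y).2, sub_zero]
    have h4 : ∀ y y', g y = g y' → y - S.subtype (v y) = y' - S.subtype (v y') := by
      intro y y' h
      have h5 : y - y' ∈ S := by
        rw [LinearMap.mem_ker, map_sub, h, sub_self]
      have h6 : v (y - y') = ⟨y - y', h5⟩ := LinearMap.congr_fun hv ⟨y - y', h5⟩
      have h7 : S.subtype (v (y - y')) = y - y' := by rw [h6]; rfl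
      rw [map_sub, map_sub] at h7
      have h8 : y - y' - (S.subtype (v y) - S.subtype (v y')) = 0 := by rw [h7, sub_self]
      rw [← sub_eq_zero, ← h8]
      abel
    choose y hy using h2
    refine Module.Projective.of_split
      { toFun := fun x => y x - S.subtype (v (y x))
        map_add' := ?_
        map_smul' := ?_ } g ?_
    · intro a b
      rw [h4 (y (a + b)) (y a + y b) (by rw [map_add, hy, hy, hy]), map_add, map_add]
      abel
    · intro a b
      rw [h4 (y (a • b)) (a • y b) (by rw [map_smul, hy, hy]), map_smul, map_smul,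
        RingHom.id_apply, smul_sub]
    · apply LinearMap.ext
      intro x
      exact (h3 _).trans (hy x)
  have hCS : ∀ i, EZ A (i + 2) C.M S := fun i =>
    ez_shift_right' s (hCP (i + 1)) (C.self i)
  have selfS : OrthPos A S S := fun i =>
    s.ez_left ((orthPos_of_projective : OrthPos A (Fin k → A) S) i) (hCS i)
  have regS : OrthPos A S A := s.orthPos_left₁ orthPos_of_projective C.reg
  obtain ⟨D, i, r, h⟩ := of_ar fS nS selfS regS
  exact ⟨D, S, inferInstance, inferInstance, Fin k → A, inferInstance, inferInstance,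
    S.subtype, g, i, r, s, inferInstance, h⟩

theorem Next.shift {C D : ARM A} (h : Next C D) {N : Type u} [AddCommGroup N] [Module A N]
    {j : ℕ} (hC : EZ A (j + 2) C.M N) : EZ A (j + 1) D.M N := by
  obtain ⟨S, _, _, P, _, _, f, g, i, r, s, hP, hir⟩ := h
  exact EZ.of_retract i r hir (s.ez_left ((orthPos_of_projective : OrthPos A P N) j) hC)

theorem shift_seq {X : ℕ → ARM A} (hX : ∀ n, Next (X n) (X (n + 1))) {N : Type u}
    [AddCommGroup N] [Module A N] (m d j : ℕ) (h : EZ A (j + d + 1) (X m).M N) :
    EZ A (j + 1) (X (m + d)).M N := by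
  induction d generalizing j with
  | zero => exact h
  | succ d ih =>
    refine (hX (m + d)).shift (j := j) ?_
    refine ih (j + 1) ?_
    rwa [show j + 1 + d + 1 = j + (d + 1) + 1 by omega]

theorem not_iso {X : ℕ → ARM A} (hX : ∀ n, Next (X n) (X (n + 1))) (m d : ℕ) :
    ¬ Nonempty ((X m).M ≃ₗ[A] (X (m + d + 1)).M) := by
  rintro ⟨e⟩
  have h1 : EZ A (0 + d + 1) (X m).M (X (m + d + 1)).M := by
    rw [Nat.zero_add]
    exact EZ.congr_right e ((X m).self d)
  have h2 : EZ A 1 (X (m + d)).M (X (m + d + 1)).M := shift_seq hX m d 0 h1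
  obtain ⟨S, _, _, P, _, _, f, g, i, r, s, hP, hir⟩ := hX (m + d)
  obtain ⟨v, hv⟩ := s.extend h2 r
  apply (X (m + d + 1)).np
  refine Module.Projective.of_split (f ∘ₗ i) v ?_
  rw [← LinearMap.comp_assoc, hv, hir]

theorem exists_seq [IsArtinianRing A] (C : ARM A) :
    ∃ X : ℕ → ARM A, X 0 = C ∧ ∀ n, Next (X n) (X (n + 1)) := by
  choose F hF using fun C : ARM A => exists_next C
  exact ⟨fun n => Nat.rec C (fun _ D => F D) n, rfl, fun n => hF _⟩

/-- **Infinitely many indecomposable counterexamples.** -/
theorem family {M : Type u} [AddCommGroup M] [Module A M] [IsArtinianRing A]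
    (fin : Module.Finite A M) (np : ¬ Module.Projective A M) (self : OrthPos A M M)
    (reg : OrthPos A M A) : ∃ (X : ℕ → Type u) (_ : ∀ n, AddCommGroup (X n))
      (_ : ∀ n, Module A (X n)), (∀ n, Module.Finite A (X n) ∧ ¬ Module.Projective A (X n) ∧
        Indec A (X n) ∧ OrthPos A (X n) A) ∧
      (∀ m n, m ≤ n → OrthPos A (X n) (X m)) ∧
      ∀ m n, Nonempty (X m ≃ₗ[A] X n) → m = n := by
  obtain ⟨C, _⟩ := of_ar fin np self reg
  obtain ⟨X, _, hX⟩ := exists_seq C
  refine ⟨fun n => (X n).M, fun n => inferInstance, fun n => inferInstance,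
    fun n => ⟨(X n).fin, (X n).np, (X n).ind, (X n).reg⟩, ?_, ?_⟩
  · intro m n hmn j
    obtain ⟨d, rfl⟩ := Nat.exists_eq_add_of_le hmn
    exact shift_seq hX m d j ((X m).self (j + d))
  · intro m n h
    rcases lt_trichotomy m n with h1 | h1 | h1
    · obtain ⟨d, rfl⟩ := Nat.exists_eq_add_of_lt h1
      exact absurd h (not_iso hX m d)
    · exact h1
    · obtain ⟨d, rfl⟩ := Nat.exists_eq_add_of_lt h1
      exact absurd (h.map LinearEquiv.symm) (not_iso hX n d)

end next

end Vale.Agent.P195.H231
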